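import Vale.Agent.P242W.Rows

/-!
# P242W: measurability of the metric speed
-/

open MeasureTheory Set Filter Topology unitInterval
open scoped ENNReal NNReal

universe u

namespace Vale.Agent.P242W47

open P242W

variable {X : Type u} [MetricSpace X]

/-- the difference quotient, cut to a punctured ball -/
noncomputable def dq (r : ℝ) (s : I) (p : C(I, X) × I) : ℝ≥0∞ :=
  ⨆ _ : s ∈ Metric.ball p.2 r ∩ {p.2}ᶜ, edist (p.1 s) (p.1 p.2) / edist s p.2

theorem lsc_dq (r : ℝ) (s : I) : LowerSemicontinuous (dq (X := X) r s) := by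
  intro p y hy
  by_cases h : s ∈ Metric.ball p.2 r ∩ {p.2}ᶜ
  · have hU : IsOpen {q : C(I, X) × I | s ∈ Metric.ball q.2 r ∩ {q.2}ᶜ} := by
      refine IsOpen.inter (s := {q : C(I, X) × I | dist s q.2 < r})
        (t := {q : C(I, X) × I | s ≠ q.2}) (isOpen_lt (by fun_prop) continuous_const)
        (isOpen_ne_fun continuous_const continuous_snd)
    have c1 : Continuous fun q : C(I, X) × I => edist (q.1 s) (q.1 q.2) := by fun_prop
    have c2 : Continuous fun q : C(I, X) × I => edist s q.2 := by fun_prop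
    have h0 : edist s p.2 ≠ 0 := fun e => h.2 (edist_eq_zero.1 e)
    have c3 : Tendsto (fun q : C(I, X) × I => edist (q.1 s) (q.1 q.2) / edist s q.2) (𝓝 p)
        (𝓝 (edist (p.1 s) (p.1 p.2) / edist s p.2)) :=
      ENNReal.Tendsto.div (c1.tendsto p) (Or.inr h0) (c2.tendsto p) (Or.inr (edist_ne_top _ _))
    rw [dq, iSup_pos h] at hy
    filter_upwards [hU.mem_nhds h, c3.eventually (lt_mem_nhds hy)] with q hq hq'
    rwa [dq, iSup_pos hq]
  · rw [dq, iSup_neg h] at hy
    exact absurd hy not_lt_bot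

theorem speed_eq (p : C(I, X) × I) :
    speed p.1 p.2 = ⨅ n : ℕ, ⨆ s : I, dq (1 / ((n : ℝ) + 1)) s p := by
  rw [speed, (nhdsWithin_hasBasis Metric.nhds_basis_ball_inv_nat_succ {p.2}ᶜ).limsup_eq_iInf_iSup]
  simp only [iInf_true, dq]

theorem lsc_sup (r : ℝ) : LowerSemicontinuous fun p : C(I, X) × I => ⨆ s : I, dq r s p :=
  lowerSemicontinuous_iSup fun s => lsc_dq r s

theorem spm1 : SPM1 X := fun γ => by
  have e : speed γ = fun t => ⨅ n : ℕ, ⨆ s : I, dq (1 / ((n : ℝ) + 1)) s (γ, t) :=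
    funext fun t => speed_eq (γ, t)
  rw [e]
  exact Measurable.iInf fun n =>
    ((lsc_sup _).comp (g := fun t : I => (γ, t)) (by fun_prop)).measurable

theorem spm [MeasurableSpace X] [MeasurableSpace C(I, X)] [BorelSpace C(I, X)] : SPM X := by
  have e : (fun p : C(I, X) × I => speed p.1 p.2) =
      fun p => ⨅ n : ℕ, ⨆ s : I, dq (1 / ((n : ℝ) + 1)) s p := funext speed_eq
  rw [SPM, e]
  exact Measurable.iInf fun n => (lsc_sup _).measurable

end Vale.Agent.P242W47
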