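import Vale.Agent.P242W.Rows
import Vale.Agent.P242W39.Plan
import Mathlib.MeasureTheory.Integral.IntervalIntegral.AbsolutelyContinuousFun

/-!
# P242W: the metric derivative of an absolutely continuous curve
-/

open MeasureTheory Set Filter Topology unitInterval
open scoped ENNReal NNReal

universe u

namespace Vale.Agent.P242W47

open P242W P242W39

variable {X : Type u} [MetricSpace X]

theorem ext_int {g : I → ℝ} (hg : Integrable g) :
    IntervalIntegrable (fun r => g (projIcc 0 1 zero_le_one r)) volume 0 1 := by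
  rw [intervalIntegrable_iff_integrableOn_Icc_of_le zero_le_one]
  refine (measurePreserving_coe.integrable_comp_emb measurableEmbedding_coe).1 ?_
  simpa only [Function.comp_def, projIcc_val] using hg

theorem ext_le {γ : C(I, X)} {g : I → ℝ}
    (h : ∀ s t : I, s ≤ t → dist (γ s) (γ t) ≤ ∫ r in Icc s t, g r) (s t : I) (hst : s ≤ t) :
    dist (γ s) (γ t) ≤ ∫ r in (s : ℝ)..t, g (projIcc 0 1 zero_le_one r) := by
  rw [← setIntegral_Icc _ hst]
  simpa only [projIcc_val] using h s t hst

theorem spd : SPD X := fun γ g hg h => by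
  filter_upwards [speed_le γ (ext_int hg) (ext_le h)] with t ht
  rwa [projIcc_val, ← Real.enorm_eq_ofReal_abs] at ht

/-- the distance from the curve to a point -/
noncomputable def ph (γ : C(I, X)) (x : X) (r : ℝ) : ℝ := dist (γ (projIcc 0 1 zero_le_one r)) x

theorem ph_coe (γ : C(I, X)) (x : X) (t : I) : ph γ x t = dist (γ t) x := by
  rw [ph, projIcc_val]

theorem ph_ac {γ : C(I, X)} (h : IsAC 1 γ) (x : X) :
    AbsolutelyContinuousOnInterval (ph γ x) 0 1 := by
  obtain ⟨g, hg, h⟩ := h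
  have hv := ext_int (memLp_one_iff_integrable.1 hg)
  set v := fun r : ℝ => g (projIcc 0 1 zero_le_one r)
  have hi : ∀ a ∈ uIcc (0 : ℝ) 1, IntervalIntegrable v volume 0 a := fun a ha =>
    hv.mono_set (uIcc_subset_uIcc left_mem_uIcc ha)
  have key : ∀ a ∈ uIcc (0 : ℝ) 1, ∀ b ∈ uIcc (0 : ℝ) 1, a ≤ b →
      dist (ph γ x a) (ph γ x b) ≤ dist (∫ r in (0 : ℝ)..a, v r) (∫ r in (0 : ℝ)..b, v r) := by
    intro a ha b hb hab
    rw [dist_comm (∫ r in (0 : ℝ)..a, v r), Real.dist_eq (∫ r in (0 : ℝ)..b, v r),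
      intervalIntegral.integral_interval_sub_left (hi b hb) (hi a ha)]
    rw [uIcc_of_le zero_le_one] at ha hb
    have := ext_le h ⟨a, ha⟩ ⟨b, hb⟩ hab
    rw [ph, ph, projIcc_of_mem _ ha, projIcc_of_mem _ hb]
    exact (dist_dist_dist_le_left _ _ _).trans (this.trans (le_abs_self _))
  refine squeeze_zero' (Eventually.of_forall fun E => Finset.sum_nonneg fun _ _ => dist_nonneg) ?_
    (hv.absolutelyContinuousOnInterval_intervalIntegral (c := 0) left_mem_uIcc)
  filter_upwards [mem_inf_of_right (mem_principal_self _)] with E hE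
  refine Finset.sum_le_sum fun i hi => ?_
  obtain ⟨h1, h2⟩ := hE.1 i hi
  rcases le_total (E.2 i).1 (E.2 i).2 with h3 | h3
  · exact key _ h1 _ h2 h3
  · rw [dist_comm, dist_comm (∫ r in (0 : ℝ)..(E.2 i).1, v r)]
    exact key _ h2 _ h1 h3

theorem ph_ev {γ : C(I, X)} {x : X} {t : I} (h : DifferentiableAt ℝ (ph γ x) t) {a : ℝ≥0∞}
    (ha : a < ‖deriv (ph γ x) t‖ₑ) :
    ∀ᶠ s in 𝓝[≠] t, a < edist (γ s) (γ t) / edist s t := by
  have h2 : Tendsto (fun s : I => (s : ℝ)) (𝓝[≠] t) (𝓝[≠] (t : ℝ)) :=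
    tendsto_nhdsWithin_iff.2 ⟨(continuous_subtype_val.tendsto t).mono_left nhdsWithin_le_nhds,
      eventually_nhdsWithin_of_forall fun s hs hs' => hs (Subtype.ext hs')⟩
  have h3 := ENNReal.tendsto_ofReal ((hasDerivAt_iff_tendsto_slope.1 h.hasDerivAt).comp h2).abs
  rw [Real.enorm_eq_ofReal_abs] at ha
  filter_upwards [h3.eventually (lt_mem_nhds ha), self_mem_nhdsWithin] with s hs hst
  refine hs.trans_le ?_
  have hd : 0 < dist s t := dist_pos.2 hst
  rw [edist_dist, edist_dist, ← ENNReal.ofReal_div_of_pos hd, Function.comp_apply, slope_def_field,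
    abs_div, ← Real.dist_eq (s : ℝ), ← Subtype.dist_eq, ph_coe, ph_coe]
  exact ENNReal.ofReal_le_ofReal (div_le_div_of_nonneg_right (abs_dist_sub_le _ _ _) hd.le)

theorem spl : SPL X := fun γ hγ => by
  set q := TopologicalSpace.denseSeq I
  set M : I → ℝ≥0∞ := fun t => ⨆ n, ‖deriv (ph γ (γ (q n))) t‖ₑ with hM
  have mM : Measurable M :=
    Measurable.iSup fun n => ((measurable_deriv _).comp measurable_subtype_coe).enorm
  have hd : ∀ᵐ t : I, ∀ n, DifferentiableAt ℝ (ph γ (γ (q n))) t := by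
    rw [ae_all_iff]
    intro n
    refine measurePreserving_coe.quasiMeasurePreserving.ae
      (p := fun r => DifferentiableAt ℝ (ph γ (γ (q n))) r) ?_
    rw [ae_restrict_iff' measurableSet_Icc]
    filter_upwards [(ph_ac hγ (γ (q n))).ae_differentiableAt] with r hr hr'
    exact hr (by rwa [uIcc_of_le zero_le_one])
  have h1 : ∀ᵐ t : I, M t ≤ speed γ t := by
    filter_upwards [hd] with t ht
    refine iSup_le fun n => le_of_forall_lt_imp_le_of_dense fun a ha => ?_
    exact le_limsup_of_frequently_le ((ph_ev (ht n) ha).mono fun s hs => hs.le).frequently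
  have h2 : ∀ s t : I, s ≤ t → edist (γ s) (γ t) ≤ ∫⁻ r in Icc s t, M r := by
    intro s t hst
    have : ∀ y : I, ‖dist (γ t) (γ y) - dist (γ s) (γ y)‖ₑ ≤ ∫⁻ r in Icc s t, M r := fun y => by
      refine (TopologicalSpace.denseRange_denseSeq I).induction_on y
        (isClosed_le (by fun_prop) continuous_const) fun n => ?_
      have ac := (ph_ac hγ (γ (q n))).mono (c := s) (d := t) (uIcc_subset_uIcc
        (by rw [uIcc_of_le zero_le_one]; exact s.2) (by rw [uIcc_of_le zero_le_one]; exact t.2))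
      rw [← ph_coe, ← ph_coe, ← ac.integral_deriv_eq_sub, ← setIntegral_Icc _ hst]
      exact (enorm_integral_le_lintegral_enorm _).trans
        (lintegral_mono fun r => le_iSup (fun n => ‖deriv (ph γ (γ (q n))) r‖ₑ) n)
    have h := this s
    rwa [dist_self, sub_zero, Real.enorm_eq_ofReal dist_nonneg, dist_comm, ← edist_dist] at h
  obtain ⟨g, hg, hγ⟩ := hγ
  have hg' := memLp_one_iff_integrable.1 hg
  have h3 := spd γ g hg' hγ
  have h4 : ∫⁻ t, M t ≠ ∞ := by
    refine ne_top_of_le_ne_top hg'.2.ne (lintegral_mono_ae ?_)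
    filter_upwards [h1, h3] with t a b using a.trans b
  have h5 := spd γ (fun t => (M t).toReal) (integrable_toReal_of_lintegral_ne_top
    mM.aemeasurable h4) fun s t hst => by
      rw [integral_toReal mM.aemeasurable (ae_restrict_of_ae (ae_lt_top mM h4)), dist_edist]
      exact ENNReal.toReal_mono
        (ne_top_of_le_ne_top h4 (setLIntegral_le_lintegral _ _)) (h2 s t hst)
  refine ⟨?_, fun s t hst => (h2 s t hst).trans (lintegral_mono_ae (ae_restrict_of_ae h1))⟩
  filter_upwards [hd, h3, h5] with t ht a b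
  refine ⟨a.trans_lt enorm_lt_top, tendsto_order.2 ⟨fun c hc => ?_, fun c hc => ?_⟩⟩
  · rw [Real.enorm_eq_ofReal ENNReal.toReal_nonneg] at b
    obtain ⟨n, hn⟩ := lt_iSup_iff.1 (hc.trans_le (b.trans ENNReal.ofReal_toReal_le))
    exact ph_ev (ht n) hn
  · exact eventually_lt_of_limsup_lt hc

end Vale.Agent.P242W47
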